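import Vale.Agent.P291.H827.Main

namespace Vale.Agent.Results.P291.EveryCharacter

open Vale.Agent.P291.Q Vale.Agent.P291.RG

/-- (1) Hikita's conjecture for all regular characters. (2) Every character, regular or not.
(3) The presentation of the ring without `ħ`. -/
theorem result (D : QData) (K L : Type) [Field K] [Algebra ℂ K] [CommRing L] [Algebra K L]
    (x : B D → K) (y : Fin D.rk → K) (hxy : AlgebraicIndependent ℂ (Sum.elim x y))
    (u : (B D → ℤ) → L) (hu : ∀ l l', u (l + l') = u l * u l') (hi : LinearIndependent K u)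
    (hs : Submodule.span K (Set.range u) = ⊤) :
    (∀ ν : D.I → ℤ, Regular D ν →
      (∀ a ∈ coulomb D x y u, ∃ r ∈ R D x y, a - algebraMap K L r ∈ fixI D x y u ν) ∧
      ∀ r ∈ R D x y, algebraMap K L r ∈ fixI D x y u ν ↔ r ∈ kerH D x y 1) ∧
    (∀ ν : D.I → ℤ, fixI D x y u ν ≤ fixI D x y u 1 ∧
      (∀ r ∈ R D x y, algebraMap K L r ∈ fixI D x y u ν → r ∈ kerH D x y 1) ∧
      ((∀ a ∈ coulomb D x y u, ∃ r ∈ R D x y, a - algebraMap K L r ∈ fixI D x y u ν) →
        fixI D x y u ν = fixI D x y u 1 ∧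
        ∀ r ∈ R D x y, algebraMap K L r ∈ fixI D x y u ν ↔ r ∈ kerH D x y 1)) ∧
    ∀ ν' : D.I → ℤ, ((∀ i, 0 < ν' i) ∨ ∀ i, ν' i < 0) → ∀ r ∈ R D x y,
      r ∈ kerH D x y ν' ↔ r ∈ kerM D x y :=
  ⟨fun ν hν => main D x y u ν hxy hu hi hs (reg_of_regular D ν hν),
    fun ν => every D x y u hxy hu hi hs ν,
    fun ν' hν r hr => kerH_iff_kerM' D x y u hxy hu hi hs ν' hν hr⟩

end Vale.Agent.Results.P291.EveryCharacter
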